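import Vale.Agent.P155.NT613.Def2
import Vale.Agent.P155.NT905.StepAm

/-!
# P155, NT: the zone term of the one-step estimate, from the layer estimate near the polygon
-/

namespace Vale.Agent.P155.NT902

open Vale.Agent.P155 Finset SW HT T905 T802 J S743 G45 H904 H12 S862 E4 NT905 T862 NT NT743 NT613

/-- the scales of the zone term -/
theorem zone_scales {γ c a CT : ℝ} (hγ : 0 < γ) (hγ1 : γ ≤ 1) (hc : 0 < c) (ha : 0 < a)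
    (ha1 : a ≤ 1) (hac : a ≤ c / 4) (hCT : 0 ≤ CT) {K : ℕ} (hK : 1 ≤ K) :
    ∃ R0 : ℕ, 1 ≤ R0 ∧ ∀ R n : ℕ, R0 ≤ R → n ≤ R → 1 ≤ n →
      ((⌈((K * R : ℕ) : ℝ) ^ a⌉₊ ^ 2 : ℕ) : ℝ) ≤ (R : ℝ) ^ c ∧
      (⌈CT * (⌈((K * n : ℕ) : ℝ) ^ (1 - γ ^ 2 / 1024)⌉₊ : ℝ)⌉₊ : ℝ) ≤
        (R : ℝ) ^ (1 - γ ^ 2 / 2048) := by
  have h1 := ((tendsto_rpow_atTop (y := c / 2) (by positivity)).comp
    tendsto_natCast_atTop_atTop).eventually (Filter.eventually_ge_atTop (4 * (K : ℝ) ^ 2))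
  have h2 := ((tendsto_rpow_atTop (y := γ ^ 2 / 2048) (by positivity)).comp
    tendsto_natCast_atTop_atTop).eventually (Filter.eventually_ge_atTop (2 * CT * K + 1))
  obtain ⟨R1, hR1⟩ := Filter.eventually_atTop.1 (h1.and h2)
  refine ⟨max R1 1, le_max_right _ _, fun R n hR hnR hn => ?_⟩
  obtain ⟨g1, g2⟩ := hR1 R ((le_max_left _ _).trans hR)
  simp only [Function.comp] at g1 g2
  have hR1' : (1 : ℝ) ≤ R := by exact_mod_cast (le_max_right _ _).trans hR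
  have hR0 : (0 : ℝ) < R := by linarith
  have hKr : (1 : ℝ) ≤ K := by exact_mod_cast hK
  have hnr : (1 : ℝ) ≤ n := by exact_mod_cast hn
  have hnR' : (n : ℝ) ≤ R := by exact_mod_cast hnR
  constructor
  · have e : ((K * R : ℕ) : ℝ) = K * R := by push_cast; ring
    have hKR : (1 : ℝ) ≤ ((K * R : ℕ) : ℝ) := by rw [e]; nlinarith
    have h3 : (1 : ℝ) ≤ ((K * R : ℕ) : ℝ) ^ a := Real.one_le_rpow hKR ha.le
    have h4 : (⌈((K * R : ℕ) : ℝ) ^ a⌉₊ : ℝ) ≤ 2 * ((K * R : ℕ) : ℝ) ^ a := by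
      have := Nat.ceil_lt_add_one (a := ((K * R : ℕ) : ℝ) ^ a) (by positivity)
      linarith
    have h5 : ((K * R : ℕ) : ℝ) ^ a ≤ K * (R : ℝ) ^ (c / 4) := by
      rw [e, Real.mul_rpow (by positivity) (by positivity)]
      refine mul_le_mul ?_ (Real.rpow_le_rpow_of_exponent_le hR1' hac) (by positivity)
        (by positivity)
      calc (K : ℝ) ^ a ≤ (K : ℝ) ^ (1 : ℝ) := Real.rpow_le_rpow_of_exponent_le hKr ha1
        _ = K := Real.rpow_one _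
    have h6 : (⌈((K * R : ℕ) : ℝ) ^ a⌉₊ : ℝ) ≤ 2 * (K * (R : ℝ) ^ (c / 4)) := by linarith
    push_cast at h6 ⊢
    calc _ ≤ (2 * (K * (R : ℝ) ^ (c / 4))) ^ 2 := pow_le_pow_left₀ (by positivity) h6 2
      _ = 4 * (K : ℝ) ^ 2 * ((R : ℝ) ^ (c / 4)) ^ 2 := by ring
      _ = 4 * (K : ℝ) ^ 2 * (R : ℝ) ^ (c / 2) := by
        rw [← Real.rpow_natCast ((R : ℝ) ^ (c / 4)) 2, ← Real.rpow_mul hR0.le]
        congr 2
        push_cast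
        ring
      _ ≤ (R : ℝ) ^ (c / 2) * (R : ℝ) ^ (c / 2) :=
        mul_le_mul_of_nonneg_right g1 (by positivity)
      _ = (R : ℝ) ^ c := by rw [← Real.rpow_add hR0]; congr 1; ring
  · have e : ((K * n : ℕ) : ℝ) = K * n := by push_cast; ring
    have hg1 : γ ^ 2 / 1024 ≤ 1 := by nlinarith
    have hg0 : 0 < γ ^ 2 / 1024 := by positivity
    have hKn : (1 : ℝ) ≤ ((K * n : ℕ) : ℝ) := by rw [e]; nlinarith
    have h3 : (1 : ℝ) ≤ ((K * n : ℕ) : ℝ) ^ (1 - γ ^ 2 / 1024) :=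
      Real.one_le_rpow hKn (by linarith)
    have h4 : (⌈((K * n : ℕ) : ℝ) ^ (1 - γ ^ 2 / 1024)⌉₊ : ℝ) ≤
        2 * ((K * n : ℕ) : ℝ) ^ (1 - γ ^ 2 / 1024) := by
      have := Nat.ceil_lt_add_one (a := ((K * n : ℕ) : ℝ) ^ (1 - γ ^ 2 / 1024)) (by positivity)
      linarith
    have h5 : ((K * n : ℕ) : ℝ) ^ (1 - γ ^ 2 / 1024) ≤ K * (R : ℝ) ^ (1 - γ ^ 2 / 1024) := by
      rw [e, Real.mul_rpow (by positivity) (by positivity)]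
      refine mul_le_mul ?_ (Real.rpow_le_rpow (by positivity) hnR' (by linarith)) (by positivity)
        (by positivity)
      calc (K : ℝ) ^ (1 - γ ^ 2 / 1024) ≤ (K : ℝ) ^ (1 : ℝ) :=
            Real.rpow_le_rpow_of_exponent_le hKr (by linarith)
        _ = K := Real.rpow_one _
    have h6 : (1 : ℝ) ≤ (R : ℝ) ^ (1 - γ ^ 2 / 1024) := Real.one_le_rpow hR1' (by linarith)
    have h7 : (⌈CT * (⌈((K * n : ℕ) : ℝ) ^ (1 - γ ^ 2 / 1024)⌉₊ : ℝ)⌉₊ : ℝ) ≤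
        CT * (⌈((K * n : ℕ) : ℝ) ^ (1 - γ ^ 2 / 1024)⌉₊ : ℝ) + 1 :=
      (Nat.ceil_lt_add_one (by positivity)).le
    have h8 : CT * (⌈((K * n : ℕ) : ℝ) ^ (1 - γ ^ 2 / 1024)⌉₊ : ℝ) ≤
        CT * (2 * (K * (R : ℝ) ^ (1 - γ ^ 2 / 1024))) :=
      mul_le_mul_of_nonneg_left (by linarith) hCT
    calc _ ≤ CT * (2 * (K * (R : ℝ) ^ (1 - γ ^ 2 / 1024))) + 1 := h7.trans (by linarith)
      _ ≤ (2 * CT * K + 1) * (R : ℝ) ^ (1 - γ ^ 2 / 1024) := by nlinarith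
      _ ≤ (R : ℝ) ^ (γ ^ 2 / 2048) * (R : ℝ) ^ (1 - γ ^ 2 / 1024) :=
        mul_le_mul_of_nonneg_right g2 (by positivity)
      _ = _ := by rw [← Real.rpow_add hR0]; congr 1; ring

/-- a bump is dominated by a density with a deterministic centre -/
theorem bump_dens {C0 : ℝ} (hC0 : 0 ≤ C0) {p q : Pt} {n K : ℕ} (hn : 1 ≤ n)
    (hpq : dn q p ≤ K * n) {φ : Pt → ℝ} (hb : IsBump p n (C0 / (n : ℝ) ^ 2) φ) (y : Pt) :
    |φ y| ≤ E4.dens (C0 * ((K : ℝ) + 1) ^ 2) q ((K + 1) * n) y := by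
  have hn0 : (0 : ℝ) < n := by exact_mod_cast hn
  by_cases hy : y ∈ box p n
  · have h1 := hb.2 0 0 (by norm_num) y
    simp only [Function.iterate_zero, id_eq, add_zero, pow_zero, mul_one] at h1
    have h2 : dn q y ≤ (K + 1) * n := by
      have := mem_box_dn905.1 hy
      have := H904.dn_tri q p y
      nlinarith
    have h3 := le_dens (C0 := C0 * ((K : ℝ) + 1) ^ 2) (by positivity)
      (n0 := (K + 1) * n) (by nlinarith) h2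
    refine h1.trans (le_trans (le_of_eq ?_) h3)
    push_cast
    field_simp
  · rw [hb.1 y hy, abs_zero]
    exact dens_nonneg (by positivity) _ _ _

open Classical in
/-- **the zone term** at a stopping time of the exploration, for loops of macroscopic size -/
theorem zone_le (hNP : NearPoly) {γ : ℝ} (hγ : 0 < γ) (hγ1 : γ ≤ 1) :
    ∃ am : ℝ, 0 < am ∧ ∀ (c0 C0 CT a : ℝ) (K : ℕ), 0 < c0 → 0 ≤ C0 → 0 < CT → 0 < a → a ≤ am →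
    1 ≤ K → ∃ c : ℝ, 0 < c ∧ ∃ C : ℝ, 0 ≤ C ∧ ∃ R0 : ℕ, 1 ≤ R0 ∧
    ∀ (R n : ℕ) (T : Temp), R0 ≤ R → Skel.Fits T R → c0 * R ≤ n → n ≤ R → ∀ s ρ0 : ℕ,
    s = ⌈((K * R : ℕ) : ℝ) ^ a⌉₊ → ρ0 = ⌈((K * n : ℕ) : ℝ) ^ (1 - γ ^ 2 / 1024)⌉₊ →
    8 ≤ s → s ^ 2 + 1 ≤ ρ0 → 8 * ρ0 + 16 ≤ n → 2 * (CT * (ρ0 : ℝ)) + 2 ≤ n →
    ∀ (xS : ℤ) (τ : Stop T.V xS) (Dom : Conf → Prop) (φ : Conf → Pt → ℝ) (p : Conf → Pt) (q : Pt),
    (∀ ω ∈ DD T.V, Dom ω → τ.New ω) →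
    (∀ ω ∈ DD T.V, Dom ω → dn q (p ω) ≤ K * n ∧ IsBump (p ω) n (C0 / (n : ℝ) ^ 2) (φ ω)) →
    (∀ ω ∈ DD T.V, Dom ω → ∀ z, ∃ v ∈ τ.L ω, CT * (ρ0 : ℝ) + 1 ≤ dn z v) →
    Ex T.V (fun ω => if Dom ω then zoneS τ φ s (K * n) q (CT * ρ0) ω else 0) ≤
      C * (R : ℝ) ^ (-c) := by
  obtain ⟨c, hc, hNP⟩ := hNP (γ ^ 2 / 2048) (by positivity)
  refine ⟨min (c / 4) 1, lt_min (by positivity) one_pos, ?_⟩
  intro c0 C0 CT a K hc0 hC0 hCT ha ham hK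
  obtain ⟨C, hC, hNP⟩ := hNP c0 (C0 * ((K : ℝ) + 1) ^ 2) (32 ^ 4) hc0 (by positivity)
    (by norm_num)
  obtain ⟨R0, hR0, hsc⟩ := zone_scales hγ hγ1 hc ha (ham.trans (min_le_right _ _))
    (ham.trans (min_le_left _ _)) hCT.le hK
  refine ⟨c, hc, C, hC, R0, hR0, ?_⟩
  intro R n T hR hfit hn hnR s ρ0 hs hρ s1 s2 s3 s4 xS τ Dom φ p q hnew hb hdiam
  have hn1 : 1 ≤ n := by omega
  obtain ⟨k1, k2⟩ := hsc R n hR hnR hn1
  rw [← hs] at k1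
  rw [← hρ] at k2
  have hh : ⌈CT * (ρ0 : ℝ)⌉₊ < n := by
    have h1 := Nat.ceil_lt_add_one (a := CT * (ρ0 : ℝ)) (by positivity)
    have h2 : (⌈CT * (ρ0 : ℝ)⌉₊ : ℝ) < n := by
      have : 0 ≤ CT * (ρ0 : ℝ) := by positivity
      linarith
    exact_mod_cast h2
  obtain ⟨F, hF0, hFE, hF⟩ := hNP R T (hR0.trans hR) hfit q ((K + 1) * n) s (s ^ 2)
    ⌈CT * (ρ0 : ℝ)⌉₊ (by
      push_cast
      have : (0 : ℝ) ≤ n := by positivity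
      have : (0 : ℝ) ≤ K := by positivity
      nlinarith) (by omega) (by nlinarith) (by nlinarith) (by nlinarith) k1 k2
  refine le_trans (H12.Ex_mono (V := T.V) ?_) hFE
  intro ω hω
  show (if Dom ω then zoneS τ φ s (K * n) q (CT * ρ0) ω else 0) ≤ F ω
  split_ifs with hd
  · have hO := oe_finite T (τ.E ω)
    have hL : τ.L ω ∈ Loops ω := Stop.L_mem (hnew ω hω hd)
    refine hF ω hω (τ.L ω) hL ?_ (OE T (τ.E ω)) (cutf (OE T (τ.E ω)) s) (φ ω)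
      (pot (OE T (τ.E ω)) (φ ω)) (Stop.cpr hω) (fun f hf => hf.1)
      (cutf_isCut (exists_notMem hO) s1 le_rfl) (bump_dens hC0 hn1 (hb ω hω hd).1 (hb ω hω hd).2)
      (pot_spec hO (φ ω)) _ ?_
    · intro z
      obtain ⟨v, hv, hzv⟩ := hdiam ω hω hd z
      refine ⟨v, hv, fun hc => ?_⟩
      have h1 : (dn z v : ℝ) ≤ (⌈CT * (ρ0 : ℝ)⌉₊ : ℝ) := by exact_mod_cast mem_box_dn905.1 hc
      have h2 := Nat.ceil_lt_add_one (a := CT * (ρ0 : ℝ)) (by positivity)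
      linarith
    · intro x hx
      rw [Finset.mem_filter] at hx
      obtain ⟨-, h1, v, hv, h2⟩ := hx
      refine ⟨?_, v, hv, mem_box_dn905.1 h2⟩
      have : (dF T.faceSet x : ℝ) ≤ (⌈CT * (ρ0 : ℝ)⌉₊ : ℝ) := h1.le.trans (Nat.le_ceil _)
      exact_mod_cast this
  · exact hF0 ω

/-! ## The two times of an excursion -/

/-- the loop of an excursion is macroscopic -/
theorem exc_diam {T : Temp} {xS : ℤ} {ω : Conf} {q : Pt} {r k : ℕ}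
    (hx : (16 * r : ℤ) ≤ |q.1 - xS|) (hk : (tE T.V xS q r k).N ω < Tm.M T.V xS ω) (z : Pt) :
    ∃ v ∈ (tE T.V xS q r k).toStop.L ω, 7 * r ≤ dn z v := by
  have h1 := NT802.fst_mem (Tm.M T.V xS ω) (fun n => Tm.p T.V xS ω n ∈ box q (2 * r))
    (NT802.exi (Tm.M T.V xS ω) (Tm.p T.V xS ω) q (2 * r) (4 * r) k)
  have h2 : (tE T.V xS q r k).N ω = NT802.fst (Tm.M T.V xS ω) (fun n => Tm.p T.V xS ω n ∈ box q (2 * r))
      (NT802.exi (Tm.M T.V xS ω) (Tm.p T.V xS ω) q (2 * r) (4 * r) k) := Tm.entT_N _ _ _ _ _ _ _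
  rw [← h2] at h1
  have h3 : Tm.p T.V xS ω ((tE T.V xS q r k).N ω) ∈ box q (2 * r) :=
    h1.2.resolve_right (by omega)
  have h4 := mem_box_dn905.1 h3
  have h5 := NT802.dn_line (t := (Tm.tm T.V xS ω ((tE T.V xS q r k).N ω)).1) hx
  have e : (tE T.V xS q r k).toStop.L ω =
      comp ω (xS, (Tm.tm T.V xS ω ((tE T.V xS q r k).N ω)).1) := by
    unfold Stop.L
    rw [Tm.GTime.toStop_t]
  rw [e]
  by_contra hcon
  push Not at hcon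
  have h6 := hcon _ (go_mem_comp ω _ (Tm.tm T.V xS ω ((tE T.V xS q r k).N ω)).2)
  have h7 := hcon _ (go_mem_comp ω (xS, (Tm.tm T.V xS ω ((tE T.V xS q r k).N ω)).1) 0)
  rw [NT.go_zero] at h7
  have h8 := H904.dn_tri q (Tm.p T.V xS ω ((tE T.V xS q r k).N ω))
    (xS, (Tm.tm T.V xS ω ((tE T.V xS q r k).N ω)).1)
  have h9 := H904.dn_tri (Tm.p T.V xS ω ((tE T.V xS q r k).N ω)) z
    (xS, (Tm.tm T.V xS ω ((tE T.V xS q r k).N ω)).1)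
  rw [H904.dn_comm _ z] at h9
  unfold Tm.p at h4 h8 h9
  omega

open Classical in
/-- **the zone term of the one-step estimate**, for the two times of an excursion -/
theorem zone_exc (hNP : NearPoly) {γ : ℝ} (hγ : 0 < γ) (hγ1 : γ ≤ 1) :
    ∃ am : ℝ, 0 < am ∧ ∀ (c0 c1 C0 CT a : ℝ) (K : ℕ), 0 < c0 → 0 < c1 → 0 ≤ C0 → 0 < CT → 0 < a →
    a ≤ am → 1 ≤ K → ∃ c : ℝ, 0 < c ∧ ∃ C : ℝ, 0 ≤ C ∧ ∃ R0 : ℕ, 1 ≤ R0 ∧
    ∀ (R n : ℕ) (T : Temp), R0 ≤ R → Skel.Fits T R → c0 * R ≤ n → n ≤ R → ∀ s ρ0 : ℕ,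
    s = ⌈((K * R : ℕ) : ℝ) ^ a⌉₊ → ρ0 = ⌈((K * n : ℕ) : ℝ) ^ (1 - γ ^ 2 / 1024)⌉₊ →
    8 ≤ s → s ^ 2 + 1 ≤ ρ0 → 8 * ρ0 + 16 ≤ n → 2 * (CT * (ρ0 : ℝ)) + 2 ≤ n →
    ∀ (xS : ℤ) (q : Pt) (r r' h k : ℕ) (Dom : Conf → Prop) (φ : Conf → Pt → ℝ)
      (p : Conf → Pt), c1 * R ≤ r → (16 * r : ℤ) ≤ |q.1 - xS| →
    (∀ ω ∈ DD T.V, Dom ω → (tE T.V xS q r k).N ω < Tm.M T.V xS ω) →
    (∀ ω ∈ DD T.V, Dom ω → dn q (p ω) ≤ K * n ∧ IsBump (p ω) n (C0 / (n : ℝ) ^ 2) (φ ω)) →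
    Ex T.V (fun ω => if Dom ω then
      zoneS (tE T.V xS q r k).toStop φ s (K * n) q (CT * ρ0) ω else 0) ≤ C * (R : ℝ) ^ (-c) ∧
    Ex T.V (fun ω => if Dom ω then
      zoneS (tU T xS q r r' h k).toStop φ s (K * n) q (CT * ρ0) ω else 0) ≤
        C * (R : ℝ) ^ (-c) := by
  obtain ⟨am, ham, hz⟩ := zone_le hNP hγ hγ1
  refine ⟨am, ham, ?_⟩
  intro c0 c1 C0 CT a K hc0 hc1 hC0 hCT ha haam hK
  obtain ⟨c, hc, C, hC, R0, hR0, hz⟩ := hz c0 C0 CT a K hc0 hC0 hCT ha haam hK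
  -- `CT ρ0 + 1 ≤ 7 c1 R`
  obtain ⟨R1, hR1, hsc⟩ := zone_scales (c := 4) (a := 1) hγ hγ1 (by norm_num) (by norm_num) le_rfl
    (by norm_num) hCT.le hK
  have h1 := ((tendsto_rpow_atTop (y := γ ^ 2 / 2048) (by positivity)).comp
    tendsto_natCast_atTop_atTop).eventually (Filter.eventually_ge_atTop (1 / c1))
  obtain ⟨R2, hR2⟩ := Filter.eventually_atTop.1 h1
  refine ⟨c, hc, C, hC, max (max R0 R1) (max R2 ⌈1 / c1⌉₊),
    hR0.trans ((le_max_left _ _).trans (le_max_left _ _)), ?_⟩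
  intro R n T hR hfit hn hnR s ρ0 hs hρ s1 s2 s3 s4 xS q r r' h k Dom φ p hr hx hlt hb
  have hRR0 : R0 ≤ R := ((le_max_left _ _).trans (le_max_left _ _)).trans hR
  have hRR1 : R1 ≤ R := ((le_max_right _ _).trans (le_max_left _ _)).trans hR
  have hRR2 : R2 ≤ R := ((le_max_left _ _).trans (le_max_right _ _)).trans hR
  have hRR3 : ⌈1 / c1⌉₊ ≤ R := ((le_max_right _ _).trans (le_max_right _ _)).trans hR
  have hRr : (1 : ℝ) ≤ R := by exact_mod_cast hR0.trans hRR0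
  have hR0' : (0 : ℝ) < R := by linarith
  have hc1R : 1 ≤ c1 * R := by
    have h2 : 1 / c1 ≤ R := (Nat.le_ceil _).trans (by exact_mod_cast hRR3)
    rw [div_le_iff₀ hc1] at h2
    linarith
  have hr1 : 1 ≤ r := by
    have : (1 : ℝ) ≤ r := hc1R.trans hr
    exact_mod_cast this
  have hbig : CT * (ρ0 : ℝ) + 1 ≤ ((7 * r : ℕ) : ℝ) := by
    obtain ⟨-, k2⟩ := hsc R n hRR1 hnR (by omega)
    rw [← hρ] at k2
    have k3 : CT * (ρ0 : ℝ) ≤ (R : ℝ) ^ (1 - γ ^ 2 / 2048) := (Nat.le_ceil _).trans k2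
    have k4 := hR2 R hRR2
    simp only [Function.comp] at k4
    have k5 : (R : ℝ) ^ (1 - γ ^ 2 / 2048) ≤ c1 * R := by
      rw [Real.rpow_sub hR0', Real.rpow_one, div_le_iff₀ (by positivity)]
      rw [div_le_iff₀ hc1] at k4
      nlinarith
    push_cast
    linarith
  have hdiam : ∀ ω ∈ DD T.V, Dom ω → ∀ z, ∃ v ∈ (tE T.V xS q r k).toStop.L ω,
      CT * (ρ0 : ℝ) + 1 ≤ dn z v := by
    intro ω hω hd z
    obtain ⟨v, hv, hzv⟩ := exc_diam hx (hlt ω hω hd) z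
    exact ⟨v, hv, hbig.trans (by exact_mod_cast hzv)⟩
  constructor
  · exact hz R n T hRR0 hfit hn hnR s ρ0 hs hρ s1 s2 s3 s4 xS (tE T.V xS q r k).toStop Dom φ p q
      (fun ω hω hd => tE_new hω hr1 hx (hlt ω hω hd)) hb hdiam
  · refine hz R n T hRR0 hfit hn hnR s ρ0 hs hρ s1 s2 s3 s4 xS (tU T xS q r r' h k).toStop Dom φ
      p q (fun ω hω hd => (tU_facts hω hr1 hx (hlt ω hω hd)).2.1) hb ?_
    intro ω hω hd z
    rw [(tU_facts hω hr1 hx (hlt ω hω hd)).2.2]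
    exact hdiam ω hω hd z

end Vale.Agent.P155.NT902
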